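import Mathlib.GroupTheory.RegularWreathProduct
import Mathlib.GroupTheory.FiniteAbelian.Basic
import Mathlib.Order.ConditionallyCompleteLattice.Indexed
import Mathlib.Order.Lattice.Nat
import Mathlib.SetTheory.Cardinal.Free

/-! Embedding in groups with two generators, with control of lengths and normal subgroups. -/

namespace Vale.Agent.N089X

open RegularWreathProduct Multiplicative
open scoped commutatorElement

variable {G H K : Type} [Group G] [Group H] [Group K]

/-- symmetric subadditive length functions -/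
structure IsLen (len : G → ℕ) : Prop where
  one : len 1 = 0
  mul : ∀ g h, len (g * h) ≤ len g + len h
  inv : ∀ g, len g⁻¹ = len g

/-- normal subgroups of exponent two with long elements -/
structure Nice (len : G → ℕ) (L : ℕ) (N : Subgroup G) : Prop where
  normal : N.Normal
  sq : ∀ g ∈ N, g * g = 1
  long : ∀ g ∈ N, g ≠ 1 → L ≤ len g

/-- such subgroups extend along the embedding `ι` -/
structure Ext (ι : G →* H) (len : G → ℕ) (len' : H → ℕ) : Prop where
  inj : Function.Injective ι
  isLen : IsLen len'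
  ext : ∀ L N, Nice len L N → ∃ N', Nice len' L N' ∧ ∀ g, ι g ∈ N' ↔ g ∈ N

theorem Ext.comp {ι : G →* H} {κ : H →* K} {a : G → ℕ} {b : H → ℕ} {c : K → ℕ} (h : Ext ι a b)
    (k : Ext κ b c) : Ext (κ.comp ι) a c :=
  ⟨k.inj.comp h.inj, k.isLen, fun L N hN => by
    obtain ⟨N', h1, h2⟩ := h.ext L N hN
    obtain ⟨N'', k1, k2⟩ := k.ext L N' h1
    exact ⟨N'', k1, fun g => (k2 _).trans (h2 g)⟩⟩

theorem Ext.codRestrict {ι : G →* H} {a : G → ℕ} {b : H → ℕ} (h : Ext ι a b) (S : Subgroup H)
    (hS : ∀ g, ι g ∈ S) : Ext (ι.codRestrict S hS) a fun x => b x.1 :=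
  ⟨fun _ _ e => h.inj (congrArg Subtype.val e),
    ⟨h.isLen.one, fun g k => h.isLen.mul g k, fun g => h.isLen.inv g⟩, fun L N hN => by
    obtain ⟨N', h1, h2⟩ := h.ext L N hN
    exact ⟨N'.comap S.subtype, ⟨h1.normal.comap _, fun g hg => Subtype.ext (h1.sq _ hg),
      fun g hg e => h1.long _ hg fun k => e (Subtype.ext k)⟩, h2⟩⟩

theorem ext_inl {a : G → ℕ} (h : IsLen a) : Ext (MonoidHom.inl G H) a fun x => a x.1 :=
  ⟨fun _ _ e => congrArg Prod.fst e, ⟨h.one, fun g k => h.mul _ _, fun g => h.inv _⟩,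
    fun L N hN => by
      have := hN.normal
      exact ⟨N.prod ⊥, ⟨inferInstance, fun g hg => Prod.ext (hN.sq _ hg.1)
        (by simp [Subgroup.mem_bot.1 hg.2]), fun g hg e => hN.long _ hg.1 fun k =>
          e (Prod.ext k hg.2)⟩, fun g => ⟨fun k => k.1, fun k => ⟨k, rfl⟩⟩⟩⟩

/-- the infinite cyclic group -/
abbrev Z : Type := Multiplicative ℤ

variable {len : G → ℕ}

/-- the elements of the unrestricted wreath product with values of bounded length -/
def Bd (h : IsLen len) : Subgroup (RegularWreathProduct G Z) where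
  carrier := {w | ∃ B, ∀ y, len (w.left y) ≤ B}
  one_mem' := ⟨0, fun _ => h.one.le⟩
  mul_mem' := fun ⟨A, ha⟩ ⟨B, hb⟩ => ⟨A + B, fun y => (h.mul _ _).trans (add_le_add (ha y) (hb _))⟩
  inv_mem' := fun ⟨A, ha⟩ => ⟨A, fun _ => (h.inv _).trans_le (ha _)⟩

variable {h : IsLen len}

/-- the largest length of a value -/
noncomputable def lenB (w : Bd h) : ℕ := ⨆ y, len (w.1.left y)

theorem le_lenB (w : Bd h) (y : Z) : len (w.1.left y) ≤ lenB w := by
  obtain ⟨B, hB⟩ := w.2
  exact le_ciSup (f := fun y => len (w.1.left y)) ⟨B, by rintro _ ⟨y, rfl⟩; exact hB y⟩ y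

theorem lenB_le {w : Bd h} {B : ℕ} (hB : ∀ y, len (w.1.left y) ≤ B) : lenB w ≤ B := ciSup_le hB

theorem isLen_lenB : IsLen (lenB (h := h)) := by
  have k : ∀ w : Bd h, lenB w⁻¹ ≤ lenB w := fun w => lenB_le fun y =>
    (h.inv _).trans_le (le_lenB w _)
  exact ⟨Nat.le_zero.1 (lenB_le fun _ => h.one.le), fun a b => lenB_le fun y =>
    (h.mul _ _).trans (add_le_add (le_lenB a y) (le_lenB b _)), fun w =>
      le_antisymm (k w) (by simpa using k w⁻¹)⟩

/-- the copy of `G` at the origin -/
def orig (h : IsLen len) : G →* Bd h where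
  toFun g := ⟨⟨fun y => if y = 1 then g else 1, 1⟩, len g, fun y => by
    by_cases e : y = 1 <;> simp [e, h.one]⟩
  map_one' := Subtype.ext (RegularWreathProduct.ext (by ext; simp) rfl)
  map_mul' a b := Subtype.ext (RegularWreathProduct.ext (by
    ext y
    by_cases e : y = 1 <;> simp [e]) (by simp))

/-- the shifts -/
def sh (h : IsLen len) (n : ℤ) : Bd h := ⟨inl (ofAdd n), 0, fun _ => h.one.le⟩

theorem ext_orig (h : IsLen len) : Ext (orig h) len lenB := by
  refine ⟨fun a b e => by simpa [orig] using congrArg (fun w : Bd h => w.1.left 1) e, isLen_lenB,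
    fun L N hN => ⟨
      { carrier := {w | w.1.right = 1 ∧ ∀ y, w.1.left y ∈ N}
        one_mem' := ⟨rfl, fun _ => one_mem _⟩
        mul_mem' := fun {a b} ha hb => ⟨by simp [ha.1, hb.1], fun y => by
          simpa [ha.1] using mul_mem (ha.2 y) (hb.2 y)⟩
        inv_mem' := fun {a} ha => ⟨by simp [ha.1], fun y => by simpa [ha.1] using ha.2 y⟩ },
      ⟨⟨fun w hw u => ⟨by simp [hw.1], fun y => by
        simpa [hw.1] using hN.normal.conj_mem _ (hw.2 (u.1.right⁻¹ * y)) (u.1.left y)⟩⟩,
        fun w hw => ?_, fun w hw e => ?_⟩, fun g => ⟨fun k => by simpa [orig] using k.2 1,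
          fun k => ⟨rfl, fun y => ?_⟩⟩⟩⟩
  · exact Subtype.ext (RegularWreathProduct.ext (funext fun y => by
      simpa [hw.1] using hN.sq _ (hw.2 y)) (by simp [hw.1]))
  · by_contra k
    refine e (Subtype.ext (RegularWreathProduct.ext (funext fun y => ?_) hw.1))
    by_contra k'
    exact k ((hN.long _ (hw.2 y) k').trans (le_lenB w y))
  · by_cases e : y = 1 <;> simp [orig, e, k]

theorem step_one (h : IsLen len) (g : G) : ∃ f : Bd h, lenB f ≤ len g ∧ ⁅f, sh h 1⁆ = orig h g := by
  refine ⟨⟨⟨fun y => if 0 ≤ y.toAdd then g else 1, 1⟩, len g, fun y => ?_⟩,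
    lenB_le fun y => ?_, Subtype.ext (RegularWreathProduct.ext (funext fun y => ?_) ?_)⟩
  · by_cases e : 0 ≤ y.toAdd <;> simp [e, h.one]
  · by_cases e : 0 ≤ y.toAdd <;> simp [e, h.one]
  · obtain ⟨n, rfl⟩ := ofAdd.surjective y
    simp only [commutatorElement_def, sh, orig, MonoidHom.coe_mk, OneHom.coe_mk, Subgroup.coe_mul,
      Subgroup.coe_inv, mul_left, inv_left, mul_right, inv_right, left_inl, right_inl,
      Pi.mul_apply, Pi.inv_apply, Pi.one_apply, toAdd_mul, toAdd_inv, toAdd_ofAdd,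
      inv_one, mul_one, one_mul, ofAdd_eq_one]
    split_ifs <;> first | omega | simp
  · simp [commutatorElement_def, sh, orig]

theorem step_two (h : IsLen len) (t : G) (u : ℕ → G) {B : ℕ} (hu : ∀ i, len (u i) ≤ B) :
    ∃ a : Bd h, ∀ i : ℕ,
      ⁅(sh h 1 ^ (2 * i + 1))⁻¹ * a * sh h 1 ^ (2 * i + 1), a⁆ = orig h ⁅u i, t⁆ := by
  have hp : ∀ n : ℕ, sh h 1 ^ n = sh h n := fun n => Subtype.ext (by
    rw [Subgroup.coe_pow]
    simp only [sh, ← map_pow, ← ofAdd_nsmul, nsmul_eq_mul, mul_one])
  refine ⟨⟨⟨fun y => if y.toAdd = 0 then t else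
    if 0 < y.toAdd ∧ y.toAdd % 2 = 1 then u (y.toAdd / 2).toNat else 1, 1⟩, len t + B,
    fun y => ?_⟩, fun i => ?_⟩
  · dsimp only
    split_ifs
    exacts [Nat.le_add_right _ _, (hu _).trans (Nat.le_add_left _ _), by simp [h.one]]
  · rw [hp]
    refine Subtype.ext (RegularWreathProduct.ext (funext fun y => ?_) ?_)
    · obtain ⟨n, rfl⟩ := ofAdd.surjective y
      simp only [commutatorElement_def, sh, orig, MonoidHom.coe_mk, OneHom.coe_mk, Subgroup.coe_mul,
        Subgroup.coe_inv, mul_left, inv_left, mul_right, inv_right, left_inl, right_inl,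
        Pi.mul_apply, Pi.inv_apply, Pi.one_apply, toAdd_mul, toAdd_ofAdd,
        inv_one, mul_one, one_mul, ofAdd_eq_one, inv_inv, inv_mul_cancel]
      by_cases e : n = 0
      · subst e
        have e1 : (((2 * i + 1 : ℕ) : ℤ) + 0) / 2 = i := by omega
        rw [if_neg (by omega), if_pos (by omega), e1]
        simp
      · rw [if_neg e, if_neg e]
        by_cases e2 : 0 < n ∧ n % 2 = 1
        · rw [if_neg (by omega), if_neg (by omega)]
          simp
        · rw [if_neg e2]
          simp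
    · simp [commutatorElement_def, sh, orig]

theorem countable_of_two {x y : G} (e : Subgroup.closure {x, y} = ⊤) : Countable G := by
  have : Function.Surjective (FreeGroup.lift fun b : Bool => if b then x else y) := by
    rw [← MonoidHom.range_eq_top, FreeGroup.range_lift_eq_closure, ← e]
    congr 1
    ext z
    simp [eq_comm, or_comm]
  have : Countable (FreeGroup Bool) := inferInstance
  exact Function.Surjective.countable ‹_›

/-- A countable group generated by a ball embeds in a group with two generators. -/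
theorem exists_two [Countable G] (h : IsLen len) (B : ℕ)
    (hB : Subgroup.closure {g | len g ≤ B} = ⊤) : ∃ (Γ : Type) (_ : Group Γ) (ι : G →* Γ)
      (len' : Γ → ℕ), (∃ x y : Γ, Subgroup.closure {x, y} = ⊤) ∧ Ext ι len len' := by
  obtain ⟨g, hg⟩ := (Set.to_countable {g | len g ≤ B}).exists_eq_range ⟨1, by simp [h.one]⟩
  choose f f1 f2 using step_one h
  obtain ⟨a, ha⟩ := step_two (isLen_lenB (h := h)) (sh h 1) (fun i => f (g i)) (B := B)
    fun i => (f1 _).trans (hg.symm.subset ⟨i, rfl⟩)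
  let S := Subgroup.closure {a, sh (isLen_lenB (h := h)) 1}
  have a1 : a ∈ S := Subgroup.subset_closure (Or.inl rfl)
  have a2 : sh _ 1 ∈ S := Subgroup.subset_closure (Or.inr rfl)
  have hS : ∀ x, ((orig _).comp (orig h)) x ∈ S := fun x => by
    have : Subgroup.closure {g | len g ≤ B} ≤ S.comap ((orig _).comp (orig h)) := by
      rw [Subgroup.closure_le, hg]
      rintro _ ⟨i, rfl⟩
      have k := mul_mem (mul_mem (inv_mem (pow_mem a2 (2 * i + 1))) a1) (pow_mem a2 (2 * i + 1))
      have k2 := mul_mem (mul_mem (mul_mem k a1) (inv_mem k)) (inv_mem a1)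
      rw [← commutatorElement_def, ha, f2] at k2
      exact k2
    exact this (hB ▸ Subgroup.mem_top x)
  refine ⟨S, inferInstance, _, _, ⟨⟨a, a1⟩, ⟨_, a2⟩, ?_⟩,
    ((ext_orig h).comp (ext_orig _)).codRestrict S hS⟩
  rw [← Subgroup.closure_closure_coe_preimage (k := {a, sh (isLen_lenB (h := h)) 1})]
  congr 1
  ext z
  exact or_congr Subtype.ext_iff Subtype.ext_iff

theorem finite_of_sq {N : Subgroup G} (hN : ∀ g ∈ N, g * g = 1) (s : Finset G)
    (hs : ∀ g ∈ s, g ∈ N) : (Subgroup.closure (s : Set G) : Set G).Finite := by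
  have h1 : Subgroup.closure (s : Set G) ≤ N := (Subgroup.closure_le _).2 hs
  have h2 : ∀ g : Subgroup.closure (s : Set G), g * g = 1 := fun g => Subtype.ext (hN _ (h1 g.2))
  let _ : CommGroup (Subgroup.closure (s : Set G)) :=
    { mul_comm := fun a b => by
        have := h2 (a * b)
        rw [← eq_inv_iff_mul_eq_one, mul_inv_rev, inv_eq_of_mul_eq_one_right (h2 a),
          inv_eq_of_mul_eq_one_right (h2 b)] at this
        exact this }
  exact CommGroup.finite_of_fg_isMulTorsion (Subgroup.closure (s : Set G)) fun g =>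
    isOfFinOrder_iff_pow_eq_one.2 ⟨2, two_pos, by rw [pow_two, h2]⟩

end Vale.Agent.N089X
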