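import Mathlib.Data.Set.Card
import Vale.Agent.P089GQ.St

/-! Amenable groups, and failure of surjectivity of the assembly map. -/

namespace Vale.Agent.N089X

open Vale.Agent.P089G Topology

/-- `A` is amenable, in the form of the condition of Folner: for each finite set `S` and `ε > 0`
there is a finite nonempty set `E` such that each `g ∈ S` moves at most `ε |E|` elements of `E`
out of `E`. -/
def Amenable (A : Type) [Group A] : Prop :=
  ∀ (S : Finset A) (ε : ℝ), 0 < ε → ∃ E : Finset A, E.Nonempty ∧
    ∀ g ∈ S, ({x | x ∈ E ∧ g * x ∉ E}.ncard : ℝ) ≤ ε * E.card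

/-- A classifying space for proper actions of `G` exists and, for each model `X` of it, the
assembly map `μ_0` exists, is unique and is not surjective. -/
def NotOnto (G : Type) [Group G] : Prop :=
  (∃ (X : Type) (_ : TopologicalSpace X) (_ : MulAction G X) (_ : ContinuousConstSMul G X)
    (_ : CWComplex (Set.univ : Set X)), IsEG G X) ∧
  ∀ (X : Type) [TopologicalSpace X] [MulAction G X] [ContinuousConstSMul G X]
    [CWComplex (Set.univ : Set X)], IsEG G X →
  ∀ (K : Type) [NormedAddCommGroup K] [InnerProductSpace ℂ K] [CompleteSpace K]
    (b : HilbertBasis G ℂ K), P089GQ.AssemblyFails X b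

/-- The conjecture of Baum and Connes for `G` in degree zero: the assembly map of each model of
the classifying space for proper actions is bijective. -/
def BC (G : Type) [Group G] : Prop :=
  ∀ (X : Type) [TopologicalSpace X] [MulAction G X] [ContinuousConstSMul G X]
    [CWComplex (Set.univ : Set X)], IsEG G X →
  ∀ (K : Type) [NormedAddCommGroup K] [InnerProductSpace ℂ K] [CompleteSpace K]
    (b : HilbertBasis G ℂ K) (μ : P089GQ.KG G X →+ KZero (P089GQ.Cr b)),
    P089GQ.IsAssembly X b μ → Function.Bijective μ

end Vale.Agent.N089X
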