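import Vale.Agent.N089X.Data
import Vale.Agent.N089X.Defs
import Vale.Agent.N089.Main

/-! Counterexamples with two generators, and split extensions with amenable kernel. -/

namespace Vale.Agent.N089X

open Vale.Agent.P089 Vale.Agent.P089.Op Vale.Agent.P089.Ind Vale.Agent.P086 Vale.Agent.N089 Filter
  Topology

variable {G Γ : Type} [Group G] [Group Γ]

theorem isT_comp {ι : G →* Γ} {C : Type} {e : C × G ≃ Γ}
    (he : ∀ c g x, e (c, g * x) = ι g * e (c, x)) {N : Subgroup G} {N' : Subgroup Γ}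
    (h : ∀ g, ι g ∈ N' ↔ g ∈ N) {τ : Ops Γ →L[ℂ] ℂ} (t : IsT N' τ) : IsT N (τ.comp (indL e)) := by
  have hl : ∀ g, indL e (lam g) = lam (ι g) := ind_lam _ e he
  exact ⟨fun g hg => by rw [ContinuousLinearMap.comp_apply, hl, t.1 _ ((h g).2 hg)],
    fun g hg => by rw [ContinuousLinearMap.comp_apply, hl, t.2 _ (mt (h g).1 hg)]⟩

theorem isT_eq {N : Subgroup G} {σ τ : Ops G →L[ℂ] ℂ} (s : IsT N σ) (t : IsT N τ) {P : Ops G}
    (hP : P ∈ CstarR G) : σ P = τ P := by
  classical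
  simpa [sub_eq_zero] using lin (σ - τ) (p := ⊥) isClosed_singleton
    (fun g _ => by simp [isT_val s, isT_val t]) (cs_univ.2 hP)

theorem Bad.ext {ι : G →* Γ} {a : G → ℕ} {b : Γ → ℕ} (h : Bad a) (k : Ext ι a b) : Bad b := by
  obtain ⟨P, hP, hPP, κ, h⟩ := h
  obtain ⟨C, e, he⟩ := exists_equiv ι k.inj
  refine ⟨indL e P, ind_mem ι e he hP, (ind_mul e P P).symm.trans (congrArg _ hPP), κ, fun L₀ => ?_⟩
  obtain ⟨L, hL, N, n1, n2⟩ := h L₀
  obtain ⟨N', k1, k2⟩ := k.ext L N n1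
  refine ⟨L, hL, N', k1, fun τ t => (n2 _ (isT_comp he k2 t)).trans_eq ?_⟩
  rw [← isT_eq (isT_comp he (fun g => by
    rw [Subgroup.mem_bot, Subgroup.mem_bot, map_eq_one_iff _ k.inj]) isT_bot) isT_bot hP]
  rfl

open Classical in
/-- The condition of Folner for a subgroup. -/
def Fol (A : Subgroup G) : Prop :=
  ∀ S : Finset G, (∀ g ∈ S, g ∈ A) → ∀ ε : ℝ, 0 < ε → ∃ E : Finset G, E.Nonempty ∧
    (∀ x ∈ E, x ∈ A) ∧ ∀ g ∈ S, ((E.filter fun x => g * x ∉ E).card : ℝ) ≤ ε * E.card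

theorem fol_of {A : Subgroup G} (h : Amenable A) : Fol A := by
  classical
  intro S hS ε hε
  obtain ⟨E, h1, h2⟩ := h (S.preimage Subtype.val Subtype.val_injective.injOn) ε hε
  refine ⟨E.image Subtype.val, h1.image _, fun x hx => ?_, fun g hg => ?_⟩
  · obtain ⟨y, -, rfl⟩ := Finset.mem_image.1 hx
    exact y.2
  · have h3 := h2 ⟨g, hS g hg⟩ (Finset.mem_preimage.2 hg)
    rw [Finset.card_image_of_injective _ Subtype.val_injective]
    refine le_trans (Nat.cast_le.2 ?_) h3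
    rw [← Set.ncard_image_of_injective _ Subtype.val_injective, ← Set.ncard_coe_finset]
    refine Set.ncard_le_ncard (fun x hx => ?_)
      ((E.finite_toSet.subset fun x hx => hx.1).image _)
    obtain ⟨a1, a2⟩ := Finset.mem_filter.1 hx
    obtain ⟨y, hy, rfl⟩ := Finset.mem_image.1 a1
    exact ⟨y, ⟨hy, fun k => a2 (Finset.mem_image.2 ⟨_, k, rfl⟩)⟩, rfl⟩

theorem Fol.tau {A : Subgroup G} (h : Fol A) : ∃ τ : Ops G →L[ℂ] ℂ, ‖τ‖ ≤ 1 ∧ IsT A τ := by
  classical
  choose E e1 e2 e3 using fun p : Finset A × ℕ => h (p.1.image fun x : A => x.1⁻¹)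
    (fun g hg => by
      obtain ⟨x, -, rfl⟩ := Finset.mem_image.1 hg
      exact inv_mem x.2) (1 / ((p.2 : ℝ) + 1)) (by positivity)
  obtain ⟨τ, hτ, hlim⟩ := exists_ulim (Ultrafilter.of (atTop : Filter (Finset A × ℕ)))
    (fun p => vst (E p)) 1 zero_le_one fun p => norm_vst_le _
  have hval : ∀ p g, vst (E p) (lam g) =
      1 - (((E p).filter fun x => g⁻¹ * x ∉ E p).card : ℝ) / ((E p).card : ℝ) := by
    intro p g
    have h0 : ((E p).card : ℂ) ≠ 0 := by exact_mod_cast (e1 p).card_pos.ne'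
    have h1 := Finset.card_filter_add_card_filter_not (s := E p) fun x => g⁻¹ * x ∈ E p
    rw [vst_apply]
    simp only [lam_apply, fv_apply, Finset.sum_boole]
    push_cast
    field_simp
    rw [eq_sub_iff_add_eq]
    exact_mod_cast h1
  refine ⟨τ, hτ, fun g hg => tendsto_nhds_unique (hlim (lam g)) (Tendsto.mono_left ?_
    (Ultrafilter.of_le _)), fun g hg => tendsto_nhds_unique (hlim (lam g))
      (tendsto_const_nhds.congr fun p => ?_)⟩
  · simp only [hval]
    have h1 : Tendsto (fun p : Finset A × ℕ =>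
        (((E p).filter fun x => g⁻¹ * x ∉ E p).card : ℝ) / ((E p).card : ℝ)) atTop (𝓝 0) := by
      refine squeeze_zero' (.of_forall fun p => by positivity) ?_
        (tendsto_one_div_add_atTop_nhds_zero_nat.comp (prod_atTop_atTop_eq (α := Finset A)
          (β := ℕ) ▸ tendsto_snd))
      filter_upwards [eventually_ge_atTop (({⟨g, hg⟩} : Finset A), 0)] with p hp
      rw [div_le_iff₀ (by exact_mod_cast (e1 p).card_pos)]
      exact e3 p _ (Finset.mem_image.2 ⟨⟨g, hg⟩, hp.1 (Finset.mem_singleton_self _), rfl⟩)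
    have h2 := (Complex.continuous_ofReal.tendsto 0).comp h1
    simpa using tendsto_const_nhds.sub h2
  · have h0 : ((E p).card : ℂ) ≠ 0 := by exact_mod_cast (e1 p).card_pos.ne'
    rw [hval, Finset.filter_true_of_mem (p := fun x => g⁻¹ * x ∉ E p) fun x hx k => hg (by
      simpa using mul_mem (e2 p x hx) (inv_mem (e2 p _ k)))]
    push_cast
    rw [div_self h0, sub_self]

theorem Fol.comap {π : Γ →* G} {σ : G → Γ} (hσ : ∀ g, π (σ g) = g) (h : Fol π.ker)
    {N : Subgroup G} (hN : LocFin N) : Fol (N.comap π) := by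
  classical
  intro S hS ε hε
  have hF := hN (S.image π) fun g hg => by
    obtain ⟨x, hx, rfl⟩ := Finset.mem_image.1 hg
    exact hS x hx
  have hle : Subgroup.closure ((S.image π : Finset G) : Set G) ≤ N := (Subgroup.closure_le _).2
    fun g hg => by
      obtain ⟨x, hx, rfl⟩ := Finset.mem_image.1 (Finset.mem_coe.1 hg)
      exact hS x hx
  obtain ⟨E, e1, e2, e3⟩ := h ((S ×ˢ hF.toFinset).image fun p => (σ (π p.1 * p.2))⁻¹ * p.1 * σ p.2)
    (fun g hg => by
      obtain ⟨p, -, rfl⟩ := Finset.mem_image.1 hg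
      simp [MonoidHom.mem_ker, hσ]) ε hε
  have inj : Set.InjOn (fun p : G × Γ => σ p.1 * p.2) (hF.toFinset ×ˢ E : Finset (G × Γ)) := by
    intro p hp q hq k
    have k1 := congrArg π k
    simp only [map_mul, hσ, MonoidHom.mem_ker.1 (e2 _ (Finset.mem_product.1 hp).2),
      MonoidHom.mem_ker.1 (e2 _ (Finset.mem_product.1 hq).2), mul_one] at k1
    refine Prod.ext k1 ?_
    simpa [k1] using k
  refine ⟨(hF.toFinset ×ˢ E).image fun p => σ p.1 * p.2, .image (.product
    ⟨1, hF.mem_toFinset.2 (one_mem _)⟩ e1) _, fun x hx => ?_, fun g hg => ?_⟩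
  · obtain ⟨p, hp, rfl⟩ := Finset.mem_image.1 hx
    obtain ⟨p1, p2⟩ := Finset.mem_product.1 hp
    simpa [hσ, MonoidHom.mem_ker.1 (e2 _ p2)] using hle (hF.mem_toFinset.1 p1)
  · rw [Finset.card_image_of_injOn inj, Finset.card_product]
    have h1 : ((hF.toFinset ×ˢ E).image fun p => σ p.1 * p.2).filter
        (fun x => g * x ∉ (hF.toFinset ×ˢ E).image fun p => σ p.1 * p.2) ⊆
        hF.toFinset.biUnion fun f => (E.filter fun x =>
          (σ (π g * f))⁻¹ * g * σ f * x ∉ E).image fun x => σ f * x := by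
      intro x hx
      obtain ⟨a1, a2⟩ := Finset.mem_filter.1 hx
      obtain ⟨p, hp, rfl⟩ := Finset.mem_image.1 a1
      obtain ⟨p1, p2⟩ := Finset.mem_product.1 hp
      refine Finset.mem_biUnion.2 ⟨p.1, p1, Finset.mem_image.2 ⟨p.2, Finset.mem_filter.2
        ⟨p2, fun k => a2 (Finset.mem_image.2 ⟨(π g * p.1, _), Finset.mem_product.2
          ⟨hF.mem_toFinset.2 (mul_mem (Subgroup.subset_closure (Finset.mem_coe.2
            (Finset.mem_image_of_mem _ hg))) (hF.mem_toFinset.1 p1)), k⟩, by group⟩)⟩, rfl⟩⟩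
    refine (Nat.cast_le.2 ((Finset.card_le_card h1).trans Finset.card_biUnion_le)).trans ?_
    push_cast
    rw [mul_left_comm, ← nsmul_eq_mul]
    refine Finset.sum_le_card_nsmul _ _ _ fun f hf => (Nat.cast_le.2 Finset.card_image_le).trans ?_
    exact e3 _ (Finset.mem_image.2 ⟨(g, f), Finset.mem_product.2 ⟨hg, by simpa using hf⟩, rfl⟩)

theorem Bad.notOnto [Countable Γ] {a : G → ℕ} (ha : IsLen a) (h : Bad a) (π : Γ →* G)
    (σ : G →* Γ) (hσ : ∀ g, π (σ g) = g) (hA : Amenable π.ker) : NotOnto Γ := by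
  classical
  obtain ⟨P, hP, hPP, κ, h⟩ := h
  obtain ⟨C, e, he⟩ := exists_equiv σ (Function.LeftInverse.injective hσ)
  obtain ⟨τ₀, s1, s2⟩ := (fol_of hA).tau
  have hD : BC.Detect (indL e P) (fun x => a (π x)) κ := by
    refine ⟨by simp [ha.one], fun g k => by simpa using ha.mul _ _, fun L₀ => ?_⟩
    obtain ⟨L, hL, N, n1, n2⟩ := h L₀
    obtain ⟨τ, t1, t2⟩ := ((fol_of hA).comap hσ (finite_of_sq n1.sq)).tau
    refine ⟨L, hL, τ - τ₀, (norm_sub_le τ τ₀).trans (by linarith), fun g k => ?_, fun g hg => ?_,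
      (n2 _ (isT_comp he (fun g => by rw [Subgroup.mem_comap, hσ]) t2)).trans_eq ?_⟩
    · simp only [sub_apply, isT_val t2, isT_val s2,
        (n1.normal.comap π).mem_comm_iff (a := g), (π.normal_ker).mem_comm_iff (a := g)]
    · by_cases k : π g = 1
      · simp [isT_val t2, isT_val s2, k]
      · simp [isT_val t2, isT_val s2, k, mt (n1.long _ · k) (not_le.2 hg)]
    · rw [← isT_eq (isT_comp he (fun g => by
        rw [MonoidHom.mem_ker, hσ, Subgroup.mem_bot]) s2) isT_bot hP]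
      rfl
  exact ⟨P089GE.exists_EG Γ, fun X _ _ _ _ hX K _ _ _ b => P089GQ.fails_of X b
    (P089GG.assemblyFails hX b hD (ind_mem σ e he hP)
      ((ind_mul e P P).symm.trans (congrArg _ hPP)))⟩

theorem amenable_ker_id : Amenable (MonoidHom.id G).ker := fun _ ε hε =>
  ⟨{1}, Finset.singleton_nonempty _, fun g _ => by
    have : {x | x ∈ ({1} : Finset (MonoidHom.id G).ker) ∧ g * x ∉ ({1} : Finset _)} = ∅ :=
      Set.eq_empty_of_forall_notMem fun x hx =>
        hx.2 (Finset.mem_singleton.2 (Subtype.ext (g * x).2))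
    rw [this, Set.ncard_empty, Nat.cast_zero]
    positivity⟩

theorem main (T : Type) [Group T] [Countable T] : ∃ (Γ : Type) (_ : Group Γ),
    (∃ x y : Γ, Subgroup.closure {x, y} = ⊤) ∧ (∃ j : T →* Γ, Function.Injective j) ∧
    Countable Γ ∧ NotOnto Γ ∧ ∀ (Δ : Type) [Group Δ] [Countable Δ] (π : Δ →* Γ) (σ : Γ →* Δ),
      (∀ g, π (σ g) = g) → Amenable π.ker → NotOnto Δ := by
  obtain ⟨G, _, _, hfg, len, h1, h2⟩ := data
  obtain ⟨S, hS, hf⟩ := Group.fg_iff.1 hfg
  obtain ⟨B, hB⟩ := (hf.image len).bddAbove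
  have k := ext_inl (H := T) h1
  obtain ⟨Γ, _, ι, len', ⟨x, y, e⟩, k'⟩ := exists_two k.isLen B (eq_top_iff.2 fun p _ => by
    have a1 : Subgroup.closure S ≤
        (Subgroup.closure {g : G × T | len g.1 ≤ B}).comap (MonoidHom.inl G T) :=
      (Subgroup.closure_le _).2 fun g hg => Subgroup.subset_closure (hB ⟨g, hg, rfl⟩)
    rw [← Prod.fst_mul_snd p]
    exact mul_mem (a1 (hS ▸ Subgroup.mem_top p.1)) (Subgroup.subset_closure
      (h1.one.trans_le (Nat.zero_le B))))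
  have := countable_of_two e
  have hb := (h2.ext k).ext k'
  exact ⟨Γ, inferInstance, ⟨x, y, e⟩, ⟨ι.comp (MonoidHom.inr G T), k'.inj.comp
    fun _ _ e => congrArg Prod.snd e⟩, this, hb.notOnto k'.isLen (.id Γ) (.id Γ) (fun _ => rfl)
      amenable_ker_id, fun Δ _ _ => hb.notOnto k'.isLen⟩

theorem NotOnto.not_bc (h : NotOnto G) : ¬ BC G := fun k => by
  obtain ⟨⟨X, _, _, _, _, hX⟩, h⟩ := h
  obtain ⟨μ, h1, -, h2, -⟩ := h X hX (L2 G) default
  exact h2 (k X hX _ _ μ h1).2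

end Vale.Agent.N089X
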